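import Mathlib
import Vale.Agent.P252.Defs
import Vale.Agent.P252.Geom
import Vale.Agent.P252.Ode

/-!
The affine Bernstein statement fails in every dimension `n ≥ 10`.
-/

namespace Vale.Agent.Results.P252.AffineBernsteinFalse

open Vale.Agent.P252 Set
open scoped ContDiff

/-- For every `n ≥ 10` there is an entire smooth, locally uniformly convex, nonquadratic solution
of the affine maximal equation. -/
theorem result : ∀ n : ℕ, 10 ≤ n → ∃ u : (Fin n → ℝ) → ℝ,
    ContDiff ℝ ∞ u ∧ (∀ x, (hessianMatrix u x).PosDef) ∧ IsAffineMaximal u ∧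
      ¬ ∃ (M : Matrix (Fin n) (Fin n) ℝ) (b : Fin n → ℝ) (c : ℝ),
          ∀ x, u x = (∑ i, ∑ j, M i j * x i * x j) + (∑ i, b i * x i) + c := by
  intro n hn
  obtain ⟨m, rfl⟩ : ∃ m, n = m + 1 := ⟨n - 1, by omega⟩
  have hN : (10 : ℝ) ≤ (m : ℝ) + 1 := by exact_mod_cast hn
  obtain ⟨A, B, h⟩ := global_solution hN
  have hr := rad_pos
  set G : ℝ → ℝ := fun s => Real.exp ((∫ τ in (0:ℝ)..s, A τ) / 2) with hGdef
  have hcont : ContinuousOn A (Ioi (-rad)) := fun s hs => (h s hs).1.continuousAt.continuousWithinAt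
  have hG : ∀ s, -rad < s → HasDerivAt G (G s * A s / 2) s := by
    intro s hs
    have hsub : uIcc 0 s ⊆ Ioi (-rad) := fun τ hτ =>
      lt_of_lt_of_le (lt_min (by linarith : -rad < 0) hs) hτ.1
    have hd := intervalIntegral.integral_hasDerivAt_right ((hcont.mono hsub).intervalIntegrable)
      (hcont.stronglyMeasurableAtFilter isOpen_Ioi s hs) (h s hs).1.continuousAt
    exact ((hd.div_const 2).exp).congr_deriv (by simp only [hGdef]; ring)
  have hGs : ContDiffOn ℝ ∞ G (Ioi (-rad)) := by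
    refine contDiffOn_pair isOpen_Ioi (Y := G) (fun s hs => hG s hs) (fun s hs => hG s hs)
      (fun k hk _ => ?_)
    have hA : ContDiffOn ℝ k A (Ioi (-rad)) := fun s hs =>
      ((h s hs).1.of_le (by exact_mod_cast le_top)).contDiffWithinAt
    exact ⟨(hk.mul hA).div_const 2, (hk.mul hA).div_const 2⟩
  let D : Vale.Agent.P252.Data m :=
    { G := G, A := A, B := B
      G_pos := fun s _ => Real.exp_pos _
      G_smooth := fun s hs => hGs.contDiffAt (Ioi_mem_nhds (by linarith))
      G_deriv := fun s hs => hG s (by linarith)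
      A_pos := fun s hs => (h s (by linarith)).2.1
      Q_pos := fun s hs => (h s (by linarith)).2.2.1
      A_deriv := fun s hs => (h s (by linarith)).2.2.2.2.1
      Q_deriv := fun s hs => (h s (by linarith)).2.2.2.2.2 }
  refine ⟨D.u, D.u_smooth, D.hessian_posDef, D.affineMaximal (by omega), ?_⟩
  rintro ⟨M, b, c, hq⟩
  have hline : ∀ t : ℝ, Real.sqrt (t ^ 2 + 1) = M 0 0 * t * t + b 0 * t + c := by
    intro t
    have := hq (Pi.single 0 t)
    have hs : sq (Pi.single (0 : Fin (m + 1)) t) = 0 := by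
      refine Finset.sum_eq_zero fun i _ => ?_
      by_cases hi : i = 0 <;> simp [tailVec, hi]
    have hu : D.u (Pi.single 0 t) = Real.sqrt (t ^ 2 + 1) := by
      simp [Vale.Agent.P252.Data.u, hs, D, hGdef]
    rw [hu] at this
    simpa [Pi.single_apply] using this
  have e0 := hline 0
  have e1 := hline 1
  have e2 := hline (-1)
  have e3 := hline 2
  norm_num at e0 e1 e2 e3
  have s2 := Real.sq_sqrt (show (0:ℝ) ≤ 2 by norm_num)
  have s5 := Real.sq_sqrt (show (0:ℝ) ≤ 5 by norm_num)
  have h5 : Real.sqrt 5 = 4 * Real.sqrt 2 - 3 := by linarith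
  rw [h5] at s5
  nlinarith [s2, s5]

end Vale.Agent.Results.P252.AffineBernsteinFalse
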